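import Vale.Agent.P054.LatticeDistances

/-!
P054: subsets of a lattice box, in any basis, have the conjectured number of pinned distances.
-/

namespace Vale.Agent.Results.P054.GridSubsets

open Finset Vale.Agent.P054.Lattice

theorem result : ∀ d : ℕ, 3 ≤ d → ∃ c : ℝ, 0 < c ∧
    ∀ (t : ℕ) (a : EuclideanSpace ℝ (Fin d)) (e : Fin d → EuclideanSpace ℝ (Fin d)),
      LinearIndependent ℝ e → ∀ f : (Fin d → Fin t) → EuclideanSpace ℝ (Fin d),
      (∀ k, f k = a + ∑ i, ((k i : ℕ) : ℝ) • e i) →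
      ∀ K : Finset (Fin d → Fin t), 2 ≤ K.card → ∀ p ∈ K,
        c * (K.card : ℝ) ^ 2 / (t : ℝ) ^ (2 * d - 2) ≤
            (((K.erase p).image fun k => dist (f k) (f p)).card : ℝ) ∧
          ∀ δ : ℝ, 0 ≤ δ → δ * (t : ℝ) ^ d ≤ K.card →
            c * δ ^ 2 * (K.card : ℝ) ^ ((2 : ℝ) / d) ≤
              (((K.erase p).image fun k => dist (f k) (f p)).card : ℝ) := by
  intro d hd
  obtain ⟨n, rfl⟩ : ∃ n, d = n + 1 := ⟨d - 1, by omega⟩
  set C : ℝ := 4 * (20 * (n + 1) * 144 ^ n) with hC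
  have hC0 : 0 < C := by positivity
  refine ⟨1 / C, by positivity, fun t a e he f hf K hK p hp => ?_⟩
  have ht : 1 ≤ t := by
    have := (p 0).isLt
    omega
  have htR : (0 : ℝ) < t := by exact_mod_cast ht
  have h2n : 2 * (n + 1) - 2 = 2 * n := by omega
  have h := pinned_count (by omega : 2 ≤ n) a e he f (fun k => by simp [hf k, vec]) K hp hK
  set N : ℝ := (((K.erase p).image fun k => dist (f k) (f p)).card : ℝ) with hN
  have hmain : 1 / C * (K.card : ℝ) ^ 2 / (t : ℝ) ^ (2 * (n + 1) - 2) ≤ N := by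
    rw [h2n, div_le_iff₀ (by positivity), one_div, ← div_eq_inv_mul, div_le_iff₀ hC0]
    exact h.trans (le_of_eq (by ring))
  refine ⟨hmain, fun δ hδ hK' => le_trans ?_ hmain⟩
  have hle : (K.card : ℝ) ≤ (t : ℝ) ^ (n + 1) := by
    have := K.card_le_univ
    simp only [Fintype.card_fun, Fintype.card_fin] at this
    exact_mod_cast this
  have hpow : (K.card : ℝ) ^ ((2 : ℝ) / (n + 1 : ℕ)) ≤ (t : ℝ) ^ 2 := by
    refine (Real.rpow_le_rpow (Nat.cast_nonneg _) hle (by positivity)).trans (le_of_eq ?_)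
    rw [← Real.rpow_natCast (t : ℝ) (n + 1), ← Real.rpow_mul htR.le,
      mul_div_cancel₀ _ (by positivity)]
    norm_num
  rw [le_div_iff₀ (by positivity)]
  calc 1 / C * δ ^ 2 * (K.card : ℝ) ^ ((2 : ℝ) / (n + 1 : ℕ)) * (t : ℝ) ^ (2 * (n + 1) - 2)
      ≤ 1 / C * δ ^ 2 * (t : ℝ) ^ 2 * (t : ℝ) ^ (2 * (n + 1) - 2) := by gcongr
    _ = 1 / C * (δ * (t : ℝ) ^ (n + 1)) ^ 2 := by
      rw [mul_assoc (1 / C * δ ^ 2), ← pow_add,
        show 2 + (2 * (n + 1) - 2) = (n + 1) * 2 by omega, pow_mul]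
      ring
    _ ≤ 1 / C * (K.card : ℝ) ^ 2 := by gcongr

end Vale.Agent.Results.P054.GridSubsets
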